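import Vale.Agent.P139Z.ODefs

/-! Two-jets of functions of a real variable; the profile as a function of the radius. -/

open Set Filter Topology MeasureTheory Complex
open scoped NNReal ENNReal ComplexConjugate ContDiff

namespace Vale.Agent.P139Z.IntB

/-- value, first and second derivative at a point -/
structure Jet (F : ℝ → ℂ) (r : ℝ) (a₀ a₁ a₂ : ℂ) : Prop where
  c : ContDiffAt ℝ 2 F r
  e0 : F r = a₀
  e1 : deriv F r = a₁
  e2 : iteratedDeriv 2 F r = a₂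

theorem iter2 (F : ℝ → ℂ) : iteratedDeriv 2 F = deriv (deriv F) := by
  rw [iteratedDeriv_succ, iteratedDeriv_one]

theorem two_le : (2 : WithTop ℕ∞) ≤ (∞ : WithTop ℕ∞) :=
  WithTop.coe_le_coe.2 (le_top : (2 : ℕ∞) ≤ ⊤)

namespace Jet

variable {F H : ℝ → ℂ} {r : ℝ} {a₀ a₁ a₂ b₀ b₁ b₂ : ℂ}

theorem of (c : ContDiffAt ℝ 2 F r) : Jet F r (F r) (deriv F r) (iteratedDeriv 2 F r) :=
  ⟨c, rfl, rfl, rfl⟩

theorem d0 (h : Jet F r a₀ a₁ a₂) : HasDerivAt F a₁ r :=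
  h.e1 ▸ (h.c.differentiableAt (by norm_num)).hasDerivAt

theorem d1 (h : Jet F r a₀ a₁ a₂) : HasDerivAt (deriv F) a₂ r := by
  have h1 : ContDiffAt ℝ 1 (deriv F) r := h.c.derivWithin (m := 1) (by norm_num)
  rw [← h.e2, iter2]
  exact (h1.differentiableAt (by norm_num)).hasDerivAt

theorem mul (h : Jet F r a₀ a₁ a₂) (h' : Jet H r b₀ b₁ b₂) :
    Jet (fun x => F x * H x) r (a₀ * b₀) (a₁ * b₀ + a₀ * b₁) (a₂ * b₀ + 2 * a₁ * b₁ + a₀ * b₂) := by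
  refine ⟨h.c.mul h'.c, by rw [h.e0, h'.e0], ?_, ?_⟩
  · rw [(h.d0.fun_mul h'.d0).deriv, h.e0, h'.e0]
  · rw [iteratedDeriv_fun_mul h.c h'.c]
    simp [Finset.sum_range_succ, h.e0, h.e1, h.e2, h'.e0, h'.e1, h'.e2]
    ring

theorem add (h : Jet F r a₀ a₁ a₂) (h' : Jet H r b₀ b₁ b₂) :
    Jet (fun x => F x + H x) r (a₀ + b₀) (a₁ + b₁) (a₂ + b₂) :=
  ⟨h.c.add h'.c, by rw [h.e0, h'.e0], (h.d0.fun_add h'.d0).deriv,
    by rw [iteratedDeriv_fun_add h.c h'.c, h.e2, h'.e2]⟩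

theorem sub (h : Jet F r a₀ a₁ a₂) (h' : Jet H r b₀ b₁ b₂) :
    Jet (fun x => F x - H x) r (a₀ - b₀) (a₁ - b₁) (a₂ - b₂) :=
  ⟨h.c.sub h'.c, by rw [h.e0, h'.e0], (h.d0.fun_sub h'.d0).deriv,
    by rw [iteratedDeriv_fun_sub h.c h'.c, h.e2, h'.e2]⟩

theorem const_mul (h : Jet F r a₀ a₁ a₂) (z : ℂ) :
    Jet (fun x => z * F x) r (z * a₀) (z * a₁) (z * a₂) :=
  ⟨contDiffAt_const.mul h.c, by rw [h.e0], (h.d0.const_mul z).deriv,
    by rw [iteratedDeriv_const_mul z h.c, h.e2]⟩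

theorem cj (h : Jet F r a₀ a₁ a₂) :
    Jet (fun x => conj (F x)) r (conj a₀) (conj a₁) (conj a₂) := by
  have e : ∀ U : ℝ → ℂ, deriv (fun x => conj (U x)) = fun x => conj (deriv U x) :=
    fun U => deriv.star' (f := U)
  refine ⟨conjCLE.contDiff.contDiffAt.comp r h.c, by rw [h.e0], by rw [e, ← h.e1], ?_⟩
  rw [iter2, e, e, ← iter2, ← h.e2]

theorem unique (h : Jet F r a₀ a₁ a₂) (h' : Jet H r b₀ b₁ b₂) (e : F =ᶠ[𝓝 r] H) :
    a₀ = b₀ ∧ a₁ = b₁ ∧ a₂ = b₂ :=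
  ⟨by rw [← h.e0, ← h'.e0, e.eq_of_nhds], by rw [← h.e1, ← h'.e1, e.deriv_eq],
    by rw [← h.e2, ← h'.e2, e.iteratedDeriv_eq]⟩

theorem d_normSq (h : Jet F r a₀ a₁ a₂) :
    HasDerivAt (fun x => ‖F x‖ ^ 2) (2 * (conj a₀ * a₁).re) r := by
  have := h.d0.norm_sq
  rwa [h.e0, Complex.inner, mul_comm a₁] at this

theorem d_im (h : Jet F r a₀ a₁ a₂) :
    HasDerivAt (fun x => (conj (F x) * deriv F x).im) ((conj a₀ * a₂).im) r := by
  have h1 := imCLM.hasFDerivAt.comp_hasDerivAt r (h.cj.d0.fun_mul h.d1)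
  rw [h.e0, h.e1] at h1
  refine h1.congr_deriv ?_
  simp [mul_comm]

end Jet

variable {m : ℕ} {β : ℝ} {G : ℝ → ℂ} {r : ℝ}

theorem jetG (hG : IsProfile m β G) (ρ : ℝ) :
    Jet G ρ (G ρ) (deriv G ρ) (iteratedDeriv 2 G ρ) :=
  Jet.of (hG.smooth.contDiffAt.of_le two_le)

theorem contDiff_Qr (hG : IsProfile m β G) : ContDiff ℝ ∞ (Qr G) :=
  hG.smooth.comp (contDiff_id.pow 2)

theorem hasDerivAt_sq (U : ℝ → ℂ) {U' : ℂ} (h : HasDerivAt U U' (r ^ 2)) :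
    HasDerivAt (fun x => U (x ^ 2)) (2 * r * U') r := by
  have h1 : HasDerivAt (fun x : ℝ => x ^ 2) (2 * r) r := by simpa using hasDerivAt_pow 2 r
  simpa [Function.comp_def] using HasDerivAt.scomp (h := fun x : ℝ => x ^ 2) r h h1

theorem deriv_Qr (hG : IsProfile m β G) : deriv (Qr G) = fun r : ℝ => 2 * r * deriv G (r ^ 2) :=
  funext fun _ => (hasDerivAt_sq G (jetG hG _).d0).deriv

theorem jetQ (hG : IsProfile m β G) (r : ℝ) : Jet (Qr G) r (G (r ^ 2)) (2 * r * deriv G (r ^ 2))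
    (2 * deriv G (r ^ 2) + 4 * r ^ 2 * iteratedDeriv 2 G (r ^ 2)) := by
  refine ⟨(contDiff_Qr hG).contDiffAt.of_le two_le, rfl,
    by rw [deriv_Qr hG], ?_⟩
  rw [iter2, deriv_Qr hG]
  have h1 : HasDerivAt (fun x : ℝ => 2 * (x : ℂ)) 2 r := by
    simpa using (hasDerivAt_id r).ofReal_comp.const_mul (2 : ℂ)
  rw [(h1.fun_mul (hasDerivAt_sq _ (jetG hG _).d1)).deriv]
  ring

/-- the profile equation in the radial variable -/
theorem odeQ (hG : IsProfile m β G) (hr : 0 < r) :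
    iteratedDeriv 2 (Qr G) r + 11 / (r : ℂ) * deriv (Qr G) r + I / 2 * r * deriv (Qr G) r
      + I * Lam m β * Qr G r = (‖Qr G r‖ : ℂ) ^ (2 * m) * Qr G r := by
  have h := hG.ode (r ^ 2) (sq_nonneg r)
  have hr' : (r : ℂ) ≠ 0 := ofReal_ne_zero.2 hr.ne'
  rw [(jetQ hG r).e1, (jetQ hG r).e2, Qr, ← h]
  push_cast
  field_simp
  ring

theorem re_Lam (m : ℕ) (β : ℝ) : (Lam m β).re = 1 / (2 * (m : ℝ)) := by
  have : Lam m β = ((1 / (2 * (m : ℝ)) : ℝ) : ℂ) - I * β := by rw [Lam]; push_cast; rfl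
  rw [this]; simp

theorem im_Lam (m : ℕ) (β : ℝ) : (Lam m β).im = -β := by
  have : Lam m β = ((1 / (2 * (m : ℝ)) : ℝ) : ℂ) - I * β := by rw [Lam]; push_cast; rfl
  rw [this]; simp

/-- the logarithmic derivative of the profile -/
theorem sf_eq (hG : IsProfile m β G) (r : ℝ) :
    sf G (r ^ 2) = r * (deriv (Qr G) r / Qr G r).re := by
  rw [(jetQ hG r).e1, Qr, sf, mul_div_assoc, show (2 * r : ℂ) = ((2 * r : ℝ) : ℂ) by push_cast; rfl,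
    re_ofReal_mul]
  ring

theorem conj_mul_eq {a b : ℂ} (ha : a ≠ 0) : conj a * b = ((‖a‖ ^ 2 : ℝ) : ℂ) * (b / a) := by
  rw [← normSq_eq_norm_sq, normSq_eq_conj_mul_self]
  field_simp

theorem ev_ne (hG : IsProfile m β G) (h0 : G (r ^ 2) ≠ 0) : ∀ᶠ x in 𝓝 r, Qr G x ≠ 0 :=
  (contDiff_Qr hG).continuous.continuousAt.eventually_ne h0

theorem hasDerivAt_nQ (hG : IsProfile m β G) (hr : 0 < r) (h0 : G (r ^ 2) ≠ 0) :
    HasDerivAt (fun x => ‖Qr G x‖ ^ 2) (‖Qr G r‖ ^ 2 * (2 * sf G (r ^ 2) / r)) r := by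
  refine (Jet.of (jetQ hG r).c).d_normSq.congr_deriv ?_
  rw [conj_mul_eq (a := Qr G r) h0, re_ofReal_mul, sf_eq hG]
  field_simp

end Vale.Agent.P139Z.IntB
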